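import Mathlib.Analysis.Normed.Module.FiniteDimension
import Mathlib.Analysis.Normed.Operator.BoundedLinearMaps
import Mathlib.Topology.MetricSpace.Lipschitz

/-! Definitions: the space of Lipschitz functions vanishing at a base point, the Lipschitz-free
space, and the bounded approximation property. -/

namespace Vale.Agent.P090

open scoped NNReal

/-- `f` is a Lipschitz function vanishing at the base point `o`. -/
def IsLip0 {M : Type} [MetricSpace M] (o : M) (f : M → ℝ) : Prop :=
  f o = 0 ∧ ∃ C : ℝ≥0, LipschitzWith C f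

/-- The best Lipschitz constant of a function `f`. -/
noncomputable def lipConst {M : Type} [MetricSpace M] (f : M → ℝ) : ℝ :=
  sInf {C : ℝ | 0 ≤ C ∧ ∀ x y, |f x - f y| ≤ C * dist x y}

section

variable {M : Type} [MetricSpace M] {o : M}

theorem IsLip0.add {f g : M → ℝ} (hf : IsLip0 o f) (hg : IsLip0 o g) : IsLip0 o (f + g) := by
  obtain ⟨hf0, C, hC⟩ := hf
  obtain ⟨hg0, D, hD⟩ := hg
  exact ⟨by simp [hf0, hg0], C + D, hC.add hD⟩

theorem IsLip0.zero : IsLip0 o (0 : M → ℝ) := ⟨rfl, 0, LipschitzWith.const 0⟩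

theorem IsLip0.smul (c : ℝ) {f : M → ℝ} (hf : IsLip0 o f) : IsLip0 o (c • f) := by
  obtain ⟨hf0, C, hC⟩ := hf
  exact ⟨by simp [hf0], ‖c‖₊ * C, (lipschitzWith_smul c).comp hC⟩

end

/-- The Lipschitz functions vanishing at `o`, as a linear subspace of all functions. -/
def lipSub (M : Type) [MetricSpace M] (o : M) : Submodule ℝ (M → ℝ) where
  carrier := IsLip0 o
  add_mem' := IsLip0.add
  zero_mem' := IsLip0.zero
  smul_mem' := IsLip0.smul

/-- `Lip₀(M)`, the space of Lipschitz functions on `M` vanishing at `o`. -/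
def Lip0 (M : Type) [MetricSpace M] (o : M) : Type := {f : M → ℝ // IsLip0 o f}

section

variable {M : Type} [MetricSpace M] {o : M}

/-- Pointwise operations. -/
noncomputable instance : AddCommGroup (Lip0 M o) := (lipSub M o).addCommGroup

noncomputable instance : Module ℝ (Lip0 M o) := (lipSub M o).module

instance : CoeFun (Lip0 M o) (fun _ => M → ℝ) := ⟨fun f => f.1⟩

/-- The norm on `Lip₀(M)` is the best Lipschitz constant. -/
noncomputable instance : Norm (Lip0 M o) := ⟨fun f => lipConst f.1⟩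

theorem Lip0.norm_def (f : Lip0 M o) :
    ‖f‖ = sInf {C : ℝ | 0 ≤ C ∧ ∀ x y, |f x - f y| ≤ C * dist x y} := rfl

@[simp] theorem Lip0.add_apply (f g : Lip0 M o) (x : M) : (f + g) x = f x + g x := rfl
@[simp] theorem Lip0.zero_apply (x : M) : (0 : Lip0 M o) x = 0 := rfl
@[simp] theorem Lip0.smul_apply (c : ℝ) (f : Lip0 M o) (x : M) : (c • f) x = c * f x := rfl
@[simp] theorem Lip0.neg_apply (f : Lip0 M o) (x : M) : (-f) x = -f x := rfl
@[simp] theorem Lip0.sub_apply (f g : Lip0 M o) (x : M) : (f - g) x = f x - g x := rfl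
@[simp] theorem Lip0.map_base (f : Lip0 M o) : f o = 0 := f.2.1

theorem Lip0.ext {f g : Lip0 M o} (h : ∀ x, f x = g x) : f = g := Subtype.ext (funext h)

theorem Lip0.set_nonempty (f : Lip0 M o) :
    {C : ℝ | 0 ≤ C ∧ ∀ x y, |f x - f y| ≤ C * dist x y}.Nonempty := by
  obtain ⟨C, hC⟩ := f.2.2
  exact ⟨C, C.2, fun x y => by simpa [Real.dist_eq] using hC.dist_le_mul x y⟩

theorem Lip0.set_bddBelow (f : Lip0 M o) :
    BddBelow {C : ℝ | 0 ≤ C ∧ ∀ x y, |f x - f y| ≤ C * dist x y} :=
  ⟨0, fun _ hC => hC.1⟩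

theorem Lip0.norm_le {f : Lip0 M o} {C : ℝ} (hC : 0 ≤ C)
    (h : ∀ x y, |f x - f y| ≤ C * dist x y) : ‖f‖ ≤ C :=
  csInf_le (Lip0.set_bddBelow f) ⟨hC, h⟩

theorem Lip0.norm_nonneg' (f : Lip0 M o) : 0 ≤ ‖f‖ :=
  le_csInf (Lip0.set_nonempty f) fun _ hC => hC.1

theorem Lip0.le_norm (f : Lip0 M o) (x y : M) : |f x - f y| ≤ ‖f‖ * dist x y := by
  rcases eq_or_ne x y with rfl | hxy
  · simp
  have hd : 0 < dist x y := dist_pos.2 hxy
  rw [← div_le_iff₀ hd]
  exact le_csInf (Lip0.set_nonempty f) fun C hC => (div_le_iff₀ hd).2 (hC.2 x y)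

/-- The norm axioms hold. -/
theorem Lip0.core : NormedSpace.Core ℝ (Lip0 M o) where
  norm_nonneg := Lip0.norm_nonneg'
  norm_smul := by
    intro c f
    have key : ∀ (c : ℝ) (f : Lip0 M o), ‖c • f‖ ≤ ‖c‖ * ‖f‖ := by
      intro c f
      refine Lip0.norm_le (mul_nonneg (norm_nonneg c) (Lip0.norm_nonneg' f)) fun x y => ?_
      have := Lip0.le_norm f x y
      calc |(c • f) x - (c • f) y| = |c| * |f x - f y| := by
            rw [← abs_mul]; congr 1; simp; ring
        _ ≤ |c| * (‖f‖ * dist x y) := by gcongr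
        _ = ‖c‖ * ‖f‖ * dist x y := by rw [Real.norm_eq_abs]; ring
    apply le_antisymm (key c f)
    rcases eq_or_ne c 0 with rfl | hc
    · simpa using Lip0.norm_nonneg' _
    · have h1 := key c⁻¹ (c • f)
      rw [smul_smul, inv_mul_cancel₀ hc, one_smul, norm_inv] at h1
      have hc' : 0 < ‖c‖ := norm_pos_iff.2 hc
      calc ‖c‖ * ‖f‖ ≤ ‖c‖ * (‖c‖⁻¹ * ‖c • f‖) := by gcongr
        _ = ‖c • f‖ := by field_simp
  norm_triangle := by
    intro f g
    refine Lip0.norm_le (add_nonneg (Lip0.norm_nonneg' f) (Lip0.norm_nonneg' g))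
      fun x y => ?_
    calc |(f + g) x - (f + g) y| = |(f x - f y) + (g x - g y)| := by
          congr 1; simp; ring
      _ ≤ |f x - f y| + |g x - g y| := abs_add_le _ _
      _ ≤ ‖f‖ * dist x y + ‖g‖ * dist x y := add_le_add (Lip0.le_norm f x y)
          (Lip0.le_norm g x y)
      _ = (‖f‖ + ‖g‖) * dist x y := by ring
  norm_eq_zero_iff := by
    intro f
    constructor
    · intro h
      apply Lip0.ext
      intro x
      have := Lip0.le_norm f x o
      rw [h, zero_mul, Lip0.map_base, sub_zero] at this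
      simpa using abs_nonpos_iff.1 this
    · rintro rfl
      exact le_antisymm (Lip0.norm_le le_rfl fun x y => by simp) (Lip0.norm_nonneg' _)

noncomputable instance : NormedAddCommGroup (Lip0 M o) := NormedAddCommGroup.ofCore Lip0.core

noncomputable instance : NormedSpace ℝ (Lip0 M o) := NormedSpace.ofCore Lip0.core

theorem Lip0.isBoundedLinearMap_eval (o x : M) :
    IsBoundedLinearMap ℝ (fun f : Lip0 M o => f x) := by
  refine IsLinearMap.with_bound ⟨fun _ _ => rfl, fun _ _ => rfl⟩ (dist x o) fun f => ?_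
  have := Lip0.le_norm f x o
  rw [Lip0.map_base, sub_zero, mul_comm] at this
  exact this

/-- The evaluation functional `δ_x : f ↦ f x` in the dual of `Lip₀(M)`. -/
noncomputable def delta (o x : M) : StrongDual ℝ (Lip0 M o) :=
  (Lip0.isBoundedLinearMap_eval o x).toContinuousLinearMap

end

/-- The closed linear span of a family `v` of vectors of a normed space `E`. -/
def ClosedSpan {E I : Type} [NormedAddCommGroup E] [NormedSpace ℝ E] (v : I → E) : Type :=
  (Submodule.span ℝ (Set.range v)).topologicalClosure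

section

variable {E I : Type} [NormedAddCommGroup E] [NormedSpace ℝ E]

/-- The norm of `E`, restricted to the closed span. -/
noncomputable instance (v : I → E) : NormedAddCommGroup (ClosedSpan v) :=
  Submodule.normedAddCommGroup _

noncomputable instance (v : I → E) : NormedSpace ℝ (ClosedSpan v) := Submodule.normedSpace _

end

/-- The Lipschitz-free space: the closed linear span of the evaluation functionals `δ_x` in the
dual of `Lip₀(M)`, with the norm of the dual. -/
abbrev LipFree (M : Type) [MetricSpace M] (o : M) : Type := ClosedSpan (delta o)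

/-- The `lam`-bounded approximation property. -/
def HasBAPWith (lam : ℝ) (X : Type) [NormedAddCommGroup X] [NormedSpace ℝ X] : Prop :=
  ∀ K : Set X, IsCompact K → ∀ ε > 0, ∃ T : X →L[ℝ] X,
    FiniteDimensional ℝ (LinearMap.range (T : X →ₗ[ℝ] X)) ∧ ‖T‖ ≤ lam ∧ ∀ u ∈ K, ‖T u - u‖ < ε

/-- The bounded approximation property. -/
def HasBAP (X : Type) [NormedAddCommGroup X] [NormedSpace ℝ X] : Prop :=
  ∃ lam : ℝ, 1 ≤ lam ∧ HasBAPWith lam X

/-- A metric space is uniformly discrete if distances between distinct points are bounded below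
by a positive constant. -/
def UniformlyDiscrete (M : Type) [MetricSpace M] : Prop :=
  ∃ c : ℝ, 0 < c ∧ ∀ x y : M, x ≠ y → c ≤ dist x y

end Vale.Agent.P090
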