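import Mathlib.Algebra.Order.Ring.Star
import Mathlib.Algebra.Order.Star.Real
import Mathlib.Analysis.Normed.Module.FiniteDimension
import Mathlib.Analysis.Normed.Operator.BoundedLinearMaps
import Mathlib.Data.Int.Star
import Mathlib.Data.Set.Finite.List
import Mathlib.GroupTheory.FreeGroup.Reduce
import Mathlib.Tactic

/-! The part of Mathlib that the development of this folder uses. -/
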